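import Mathlib

/-!
P204 (F7): operators with smooth compactly supported kernels.
They are smoothing, and equal a finite-rank operator plus one which is small in the sup norm.
-/

namespace Vale.Agent.P204.Full.Neumann

open MeasureTheory Function Finset
open scoped ContDiff BigOperators

variable {E G : Type} [NormedAddCommGroup E] [NormedSpace ℝ E] [FiniteDimensional ℝ E]
  [MeasurableSpace E] [BorelSpace E] {μ : Measure E} [IsFiniteMeasureOnCompacts μ]
  [NormedAddCommGroup G] [NormedSpace ℝ G]

section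
variable {H : Type} [NormedAddCommGroup H] [NormedSpace ℝ H]

/-- a smooth compactly supported map is bounded -/
theorem exists_bound_of_contDiff {X W : Type} [NormedAddCommGroup X] [NormedSpace ℝ X]
    [NormedAddCommGroup W] [NormedSpace ℝ W] {g : X → W} (hg : ContDiff ℝ ∞ g)
    (hgs : HasCompactSupport g) : ∃ c, ∀ p, ‖g p‖ ≤ c :=
  hg.continuous.bounded_above_of_compact_support hgs

/-- the operator with kernel `k` -/
noncomputable def kop (μ : Measure E) (k : E → E → G →L[ℝ] H) (f : E → G) (x : E) : H :=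
  ∫ y, k x y (f y) ∂μ

/-- the derivative of the kernel in the first variable, as a kernel -/
noncomputable def kderiv (k : E → E → G →L[ℝ] H) (x y : E) : G →L[ℝ] E →L[ℝ] H :=
  ((fderiv ℝ (uncurry k) (x, y)).comp (ContinuousLinearMap.inl ℝ E E)).flip

/-- the second projection of the support of a kernel -/
def ySupport (k : E → E → G →L[ℝ] H) : Set E := Prod.snd '' tsupport (uncurry k)

theorem apply_eq_zero_of_notMem {k : E → E → G →L[ℝ] H} {x y : E} (h : y ∉ ySupport k) :
    k x y = 0 :=
  image_eq_zero_of_notMem_tsupport (f := uncurry k) (x := (x, y)) fun hm => h ⟨_, hm, rfl⟩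

theorem isCompact_ySupport {k : E → E → G →L[ℝ] H} (hs : HasCompactSupport (uncurry k)) :
    IsCompact (ySupport k) :=
  hs.image continuous_snd

theorem ySupport_kderiv_subset {k : E → E → G →L[ℝ] H} : ySupport (kderiv k) ⊆ ySupport k := by
  refine Set.image_mono ?_
  refine (closure_mono ?_).trans (closure_minimal (support_fderiv_subset ℝ) isClosed_closure)
  intro p hp h0
  exact hp (by simp [kderiv, uncurry, h0])

theorem contDiff_kderiv {k : E → E → G →L[ℝ] H} (hk : ContDiff ℝ ∞ (uncurry k)) :
    ContDiff ℝ ∞ (uncurry (kderiv k)) := by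
  have h1 : ContDiff ℝ ∞ fun p : E × E =>
      (fderiv ℝ (uncurry k) p).comp (ContinuousLinearMap.inl ℝ E E) :=
    (hk.fderiv_right (m := ∞) le_rfl).clm_comp contDiff_const
  exact (LinearIsometryEquiv.contDiff (𝕜 := ℝ) (E := E →L[ℝ] G →L[ℝ] H)
    (F := G →L[ℝ] E →L[ℝ] H) (ContinuousLinearMap.flipₗᵢ ℝ E G H)).comp h1

theorem hasCompactSupport_kderiv {k : E → E → G →L[ℝ] H} (hs : HasCompactSupport (uncurry k)) :
    HasCompactSupport (uncurry (kderiv k)) := by
  refine (hs.fderiv ℝ).mono' fun p hp => subset_closure fun h0 => hp ?_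
  simp [kderiv, uncurry, h0]

theorem continuous_integrand {k : E → E → G →L[ℝ] H} (hk : Continuous (uncurry k)) {f : E → G}
    (hf : Continuous f) (x : E) : Continuous fun y => k x y (f y) :=
  (hk.comp (continuous_const.prodMk continuous_id)).clm_apply hf

theorem hasCompactSupport_integrand {k : E → E → G →L[ℝ] H} (hs : HasCompactSupport (uncurry k))
    (f : E → G) (x : E) : HasCompactSupport fun y => k x y (f y) :=
  HasCompactSupport.intro (isCompact_ySupport hs) fun y hy => by
    simp [apply_eq_zero_of_notMem hy]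

theorem norm_kop_le {k : E → E → G →L[ℝ] H} (hs : HasCompactSupport (uncurry k)) {c a : ℝ}
    (hc : ∀ x y, ‖k x y‖ ≤ c) {f : E → G} (hf : ∀ y ∈ ySupport k, ‖f y‖ ≤ a) (x : E) :
    ‖kop μ k f x‖ ≤ c * a * μ.real (ySupport k) := by
  have he : kop μ k f x = ∫ y in ySupport k, k x y (f y) ∂μ := by
    refine (setIntegral_eq_integral_of_forall_compl_eq_zero fun y hy => ?_).symm
    simp [apply_eq_zero_of_notMem hy]
  rw [he]
  refine norm_setIntegral_le_of_norm_le_const (isCompact_ySupport hs).measure_lt_top fun y hy => ?_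
  calc ‖k x y (f y)‖ ≤ ‖k x y‖ * ‖f y‖ := (k x y).le_opNorm _
    _ ≤ c * a := mul_le_mul (hc x y) (hf y hy) (norm_nonneg _) ((norm_nonneg _).trans (hc x y))

theorem hasFDerivAt_kop [CompleteSpace H] {k : E → E → G →L[ℝ] H}
    (hk : ContDiff ℝ ∞ (uncurry k)) (hs : HasCompactSupport (uncurry k)) {f : E → G}
    (hf : Continuous f) (x : E) : HasFDerivAt (kop μ k f) (kop μ (kderiv k) f x) x := by
  have hk' := contDiff_kderiv hk
  have hs' := hasCompactSupport_kderiv hs
  obtain ⟨c, hc⟩ := exists_bound_of_contDiff hk' hs'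
  obtain ⟨a, ha⟩ := (isCompact_ySupport hs).exists_bound_of_continuousOn hf.continuousOn
  let bound : E → ℝ := (ySupport k).indicator fun _ => c * a
  have hmeas : ∀ x', AEStronglyMeasurable (fun y => k x' y (f y)) μ := fun x' =>
    (continuous_integrand hk.continuous hf x').aestronglyMeasurable
  have hint : Integrable (fun y => k x y (f y)) μ :=
    (continuous_integrand hk.continuous hf x).integrable_of_hasCompactSupport
      (hasCompactSupport_integrand hs f x)
  have hmeas' : AEStronglyMeasurable (fun y => kderiv k x y (f y)) μ :=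
    (continuous_integrand hk'.continuous hf x).aestronglyMeasurable
  have hbound : ∀ y x', ‖kderiv k x' y (f y)‖ ≤ bound y := by
    intro y x'
    by_cases hy : y ∈ ySupport k
    · simp only [bound, Set.indicator_of_mem hy]
      have h1 : ‖kderiv k x' y‖ ≤ c := hc (x', y)
      have h0 : 0 ≤ c := (norm_nonneg (kderiv k x' y)).trans h1
      exact ((kderiv k x' y).le_opNorm _).trans
        (mul_le_mul h1 (ha y hy) (norm_nonneg _) h0)
    · have h0 := apply_eq_zero_of_notMem (k := kderiv k) (x := x')
        (fun hm => hy (ySupport_kderiv_subset hm))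
      simp [h0, bound, hy]
  have hb : Integrable bound μ :=
    (integrable_indicator_iff (isCompact_ySupport hs).measurableSet).2
      (integrableOn_const (isCompact_ySupport hs).measure_lt_top.ne)
  have hdiff : ∀ y x', HasFDerivAt (fun x'' => k x'' y (f y)) (kderiv k x' y (f y)) x' := by
    intro y x'
    have h0 : HasFDerivAt (uncurry k) (fderiv ℝ (uncurry k) (x', y)) (x', y) :=
      ((hk.differentiable (by simp)) (x', y)).hasFDerivAt
    have h1 : HasFDerivAt (fun x'' => k x'' y)
        ((fderiv ℝ (uncurry k) (x', y)).comp (ContinuousLinearMap.inl ℝ E E)) x' :=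
      HasFDerivAt.comp (f := fun x'' : E => (x'', y)) (g := uncurry k) x' h0
        (hasFDerivAt_prodMk_left x' y)
    have h2 := h1.clm_apply (hasFDerivAt_const (f y) x')
    refine h2.congr_fderiv ?_
    ext v
    simp [kderiv]
  exact hasFDerivAt_integral_of_dominated_of_fderiv_le (s := Set.univ) (bound := bound)
    (F := fun x' y => k x' y (f y)) (F' := fun x' y => kderiv k x' y (f y)) Filter.univ_mem
    (Filter.Eventually.of_forall hmeas) hint hmeas'
    (Filter.Eventually.of_forall fun y x' _ => hbound y x') hb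
    (Filter.Eventually.of_forall fun y x' _ => hdiff y x')

end

theorem contDiff_kop_aux {f : E → G} (hf : Continuous f) (n : ℕ) :
    ∀ {H : Type} [NormedAddCommGroup H] [NormedSpace ℝ H] [CompleteSpace H]
      {k : E → E → G →L[ℝ] H}, ContDiff ℝ ∞ (uncurry k) → HasCompactSupport (uncurry k) →
        ContDiff ℝ n (kop μ k f) := by
  induction n with
  | zero =>
    intro H _ _ _ k hk hs
    simp only [Nat.cast_zero, contDiff_zero]
    exact continuous_iff_continuousAt.2 fun x => (hasFDerivAt_kop hk hs hf x).continuousAt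
  | succ n ih =>
    intro H _ _ _ k hk hs
    have hd : fderiv ℝ (kop μ k f) = kop μ (kderiv k) f :=
      funext fun x => (hasFDerivAt_kop hk hs hf x).fderiv
    rw [Nat.cast_succ, contDiff_succ_iff_fderiv]
    refine ⟨fun x => (hasFDerivAt_kop hk hs hf x).differentiableAt, fun h => ?_, ?_⟩
    · exact absurd h (by simp)
    · rw [hd]
      exact ih (contDiff_kderiv hk) (hasCompactSupport_kderiv hs)

/-- the operator maps continuous functions to smooth ones -/
theorem contDiff_kop {H : Type} [NormedAddCommGroup H] [NormedSpace ℝ H] [CompleteSpace H]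
    {k : E → E → G →L[ℝ] H} (hk : ContDiff ℝ ∞ (uncurry k)) (hs : HasCompactSupport (uncurry k))
    {f : E → G} (hf : Continuous f) : ContDiff ℝ ∞ (kop μ k f) :=
  contDiff_infty.2 fun n => contDiff_kop_aux hf n hk hs

/-- the operator is smoothing: every derivative is bounded by the sup of the argument -/
theorem exists_norm_iteratedFDeriv_kop_le (n : ℕ) :
    ∀ {H : Type} [NormedAddCommGroup H] [NormedSpace ℝ H] [CompleteSpace H]
      {k : E → E → G →L[ℝ] H}, ContDiff ℝ ∞ (uncurry k) → HasCompactSupport (uncurry k) →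
      ∃ C, 0 ≤ C ∧ ∀ (f : E → G) (a : ℝ), Continuous f → 0 ≤ a →
        (∀ y ∈ ySupport k, ‖f y‖ ≤ a) → ∀ x, ‖iteratedFDeriv ℝ n (kop μ k f) x‖ ≤ C * a := by
  induction n with
  | zero =>
    intro H _ _ _ k hk hs
    obtain ⟨c, hc⟩ := exists_bound_of_contDiff hk hs
    refine ⟨|c| * μ.real (ySupport k), mul_nonneg (abs_nonneg _) measureReal_nonneg,
      fun f a _ _ hfa x => ?_⟩
    rw [norm_iteratedFDeriv_zero]
    exact (norm_kop_le hs (fun x y => (hc (x, y)).trans (le_abs_self c)) hfa x).trans
      (le_of_eq (by ring))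
  | succ n ih =>
    intro H _ _ _ k hk hs
    obtain ⟨C, hC, hCb⟩ := ih (contDiff_kderiv hk) (hasCompactSupport_kderiv hs)
    refine ⟨C, hC, fun f a hf ha hfa x => ?_⟩
    have hd : fderiv ℝ (kop μ k f) = kop μ (kderiv k) f :=
      funext fun x => (hasFDerivAt_kop hk hs hf x).fderiv
    rw [← norm_iteratedFDeriv_fderiv, hd]
    exact hCb f a hf ha (fun y hy => hfa y (ySupport_kderiv_subset hy)) x

/-- finite rank plus small: `k x y` is uniformly close to `∑ i, χ i x • k (c i) y` -/
theorem exists_kernel_approx {H : Type} [NormedAddCommGroup H] [NormedSpace ℝ H]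
    {k : E → E → G →L[ℝ] H} (hk : ContDiff ℝ ∞ (uncurry k)) (hs : HasCompactSupport (uncurry k))
    {ε : ℝ} (hε : 0 < ε) :
    ∃ (N : ℕ) (χ : ℕ → E → ℝ) (c : ℕ → E) (k' : E → E → G →L[ℝ] H),
      (∀ i, ContDiff ℝ ∞ (χ i)) ∧ (∀ i, HasCompactSupport (χ i)) ∧
      ContDiff ℝ ∞ (uncurry k') ∧ HasCompactSupport (uncurry k') ∧
      ySupport k' ⊆ ySupport k ∧ (∀ x y, ‖k' x y‖ ≤ ε) ∧
      ∀ x y, k x y = (∑ i ∈ range N, χ i x • k (c i) y) + k' x y := by
  obtain ⟨δ, hδ, hδk⟩ := Metric.uniformContinuous_iff.1
    (hs.uniformContinuous_of_continuous hk.continuous) ε hε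
  set K0 : Set E := Prod.fst '' tsupport (uncurry k)
  have hK0 : IsCompact K0 := hs.image continuous_fst
  obtain ⟨t, -, htfin, htcov⟩ := finite_cover_balls_of_compact hK0 (half_pos hδ)
  classical
  let l : List E := htfin.toFinset.toList
  let cen : ℕ → E := fun i => l.getD i 0
  let b : ℕ → E → ℝ := fun i =>
    ⇑({ rIn := δ / 2, rOut := δ, rIn_pos := half_pos hδ, rIn_lt_rOut := half_lt_self hδ } :
      ContDiffBump (cen i))
  let χ : ℕ → E → ℝ := fun i x => b i x * ∏ j ∈ range i, (1 - b j x)
  have hb : ∀ i, ContDiff ℝ ∞ (b i) := fun i => ContDiffBump.contDiff _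
  have hb01 : ∀ i x, 0 ≤ b i x ∧ b i x ≤ 1 := fun i x =>
    ⟨ContDiffBump.nonneg _, ContDiffBump.le_one _⟩
  have hχ : ∀ i, ContDiff ℝ ∞ (χ i) := fun i =>
    (hb i).mul (contDiff_prod fun j _ => contDiff_const.sub (hb j))
  have hχs : ∀ i, HasCompactSupport (χ i) := fun i =>
    (ContDiffBump.hasCompactSupport _).mul_right
  have hsum : ∀ n x, ∑ i ∈ range n, χ i x = 1 - ∏ i ∈ range n, (1 - b i x) := by
    intro n x
    induction n with
    | zero => simp
    | succ n ih => rw [sum_range_succ, prod_range_succ, ih]; simp only [χ]; ring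
  have hχ0 : ∀ i x, 0 ≤ χ i x := fun i x =>
    mul_nonneg (hb01 i x).1 (prod_nonneg fun j _ => by linarith [(hb01 j x).2])
  have hone : ∀ x ∈ K0, ∑ i ∈ range l.length, χ i x = 1 := by
    intro x hx
    obtain ⟨z, hz, hxz⟩ := Set.mem_iUnion₂.1 (htcov hx)
    obtain ⟨i, hi, hiz⟩ := List.getElem_of_mem
      (show z ∈ l from Finset.mem_toList.2 (htfin.mem_toFinset.2 hz))
    rw [hsum]
    have hcz : cen i = z := by simp [cen, List.getD_eq_getElem, hi, hiz]
    have hbi : b i x = 1 := by
      refine ContDiffBump.one_of_mem_closedBall _ ?_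
      show x ∈ Metric.closedBall (cen i) (δ / 2)
      rw [hcz]
      exact Metric.ball_subset_closedBall hxz
    rw [prod_eq_zero (mem_range.2 hi) (by rw [hbi]; ring), sub_zero]
  refine ⟨l.length, χ, cen, fun x y => k x y - ∑ i ∈ range l.length, χ i x • k (cen i) y,
    hχ, hχs, ?_, ?_, ?_, ?_, fun x y => (add_sub_cancel _ _).symm⟩
  · exact hk.sub (ContDiff.sum fun i _ => ((hχ i).comp contDiff_fst).smul
      (hk.comp (contDiff_const.prodMk contDiff_snd)))
  · refine HasCompactSupport.intro
      ((hK0.union (isCompact_iUnion fun i : Fin l.length => hχs i)).prod (isCompact_ySupport hs)) ?_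
    rintro ⟨x, y⟩ hxy
    by_cases hy : y ∈ ySupport k
    · have hx : x ∉ K0 ∪ ⋃ i : Fin l.length, tsupport (χ i) := fun hx => hxy ⟨hx, hy⟩
      rw [Set.mem_union, not_or, Set.mem_iUnion, not_exists] at hx
      have h0 : k x y = 0 := image_eq_zero_of_notMem_tsupport (f := uncurry k) (x := (x, y))
        fun hm => hx.1 ⟨_, hm, rfl⟩
      have h1 : ∀ i ∈ range l.length, χ i x • k (cen i) y = 0 := fun i hi => by
        rw [image_eq_zero_of_notMem_tsupport (hx.2 ⟨i, mem_range.1 hi⟩), zero_smul]
      simp only [uncurry_apply_pair, h0, sum_eq_zero h1, sub_zero]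
    · simp [apply_eq_zero_of_notMem hy]
  · refine (Set.image_mono (closure_minimal ?_ (isClosed_univ.prod (isCompact_ySupport hs).isClosed))).trans ?_
    · rintro ⟨x, y⟩ hp
      refine ⟨Set.mem_univ _, ?_⟩
      by_contra hy
      exact hp (by simp [apply_eq_zero_of_notMem hy])
    · rintro y ⟨p, hp, rfl⟩
      exact hp.2
  · intro x y
    have hdiff : ∀ i ∈ range l.length, ‖χ i x • (k x y - k (cen i) y)‖ ≤ χ i x * ε := by
      intro i _
      rw [norm_smul, Real.norm_eq_abs, abs_of_nonneg (hχ0 i x)]
      by_cases hz : χ i x = 0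
      · simp [hz]
      refine mul_le_mul_of_nonneg_left ?_ (hχ0 i x)
      rw [← dist_eq_norm]
      refine (hδk (a := (x, y)) (b := (cen i, y)) ?_).le
      rw [Prod.dist_eq, dist_self, max_eq_left dist_nonneg]
      by_contra hd
      exact hz (by
        simp only [χ]
        rw [show b i x = 0 from ContDiffBump.zero_of_le_dist _ (not_lt.1 hd), zero_mul])
    have hle : ∑ i ∈ range l.length, χ i x ≤ 1 := by
      rw [hsum]
      linarith [prod_nonneg (s := range l.length) fun j _ =>
        show (0 : ℝ) ≤ 1 - b j x by linarith [(hb01 j x).2]]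
    have hsplit : k x y - ∑ i ∈ range l.length, χ i x • k (cen i) y =
        ∑ i ∈ range l.length, χ i x • (k x y - k (cen i) y) := by
      simp only [smul_sub, sum_sub_distrib, ← sum_smul]
      by_cases hx : x ∈ K0
      · rw [hone x hx, one_smul]
      · have h0 : k x y = 0 := image_eq_zero_of_notMem_tsupport (f := uncurry k) (x := (x, y))
          fun hm => hx ⟨_, hm, rfl⟩
        simp [h0]
    show ‖k x y - ∑ i ∈ range l.length, χ i x • k (cen i) y‖ ≤ ε
    rw [hsplit]
    refine (norm_sum_le _ _).trans ((sum_le_sum hdiff).trans ?_)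
    rw [← sum_mul]
    exact mul_le_of_le_one_left hε.le hle

/-- the operator is a finite-rank one plus one with sup norm at most `ε` times that of `f` -/
theorem exists_finite_rank_add_small {H : Type} [NormedAddCommGroup H] [NormedSpace ℝ H]
    [CompleteSpace H] {k : E → E → G →L[ℝ] H} (hk : ContDiff ℝ ∞ (uncurry k))
    (hs : HasCompactSupport (uncurry k)) {ε : ℝ} (hε : 0 < ε) :
    ∃ (N : ℕ) (χ : ℕ → E → ℝ) (c : ℕ → E) (k' : E → E → G →L[ℝ] H),
      (∀ i, ContDiff ℝ ∞ (χ i)) ∧ (∀ i, HasCompactSupport (χ i)) ∧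
      ContDiff ℝ ∞ (uncurry k') ∧ HasCompactSupport (uncurry k') ∧
      ySupport k' ⊆ ySupport k ∧
      (∀ f : E → G, Continuous f → ∀ x,
        kop μ k f x = (∑ i ∈ range N, χ i x • kop μ k f (c i)) + kop μ k' f x) ∧
      ∀ (f : E → G) (a : ℝ), 0 ≤ a → (∀ y ∈ ySupport k, ‖f y‖ ≤ a) →
        ∀ x, ‖kop μ k' f x‖ ≤ ε * a := by
  have hV : 0 ≤ μ.real (ySupport k) := measureReal_nonneg
  obtain ⟨N, χ, c, k', h1, h2, h3, h4, h5, h6, h7⟩ :=
    exists_kernel_approx hk hs (ε := ε / (μ.real (ySupport k) + 1)) (by positivity)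
  refine ⟨N, χ, c, k', h1, h2, h3, h4, h5, fun f hf x => ?_, fun f a ha hfa x => ?_⟩
  · have hi : ∀ x, Integrable (fun y => k x y (f y)) μ := fun x =>
      (continuous_integrand hk.continuous hf x).integrable_of_hasCompactSupport
        (hasCompactSupport_integrand hs f x)
    have hi' : Integrable (fun y => k' x y (f y)) μ :=
      (continuous_integrand h3.continuous hf x).integrable_of_hasCompactSupport
        (hasCompactSupport_integrand h4 f x)
    simp only [kop]
    have he : (fun y => k x y (f y)) =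
        fun y => (∑ i ∈ range N, χ i x • k (c i) y (f y)) + k' x y (f y) := by
      funext y
      rw [h7 x y]
      simp
    rw [he, integral_add (integrable_finsetSum _ fun i _ => (hi (c i)).fun_smul (χ i x)) hi',
      integral_finsetSum _ fun i _ => (hi (c i)).fun_smul (χ i x)]
    simp only [integral_smul]
  · refine (norm_kop_le h4 h6 (fun y hy => hfa y (h5 hy)) x).trans ?_
    have hle : μ.real (ySupport k') ≤ μ.real (ySupport k) :=
      measureReal_mono h5 (isCompact_ySupport hs).measure_lt_top.ne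
    calc ε / (μ.real (ySupport k) + 1) * a * μ.real (ySupport k')
        ≤ ε / (μ.real (ySupport k) + 1) * a * (μ.real (ySupport k) + 1) := by
          refine mul_le_mul_of_nonneg_left ?_ (by positivity)
          linarith
      _ = ε * a := by field_simp

end Vale.Agent.P204.Full.Neumann
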