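import Vale.Agent.P204.Full.Neumann.Series

/-!
P204 (F7): lifting through a parametrix.
If `P (D u) = u + K u + F u` with `K` small at top order and `F` of finite rank, then every element
in the range of `P` has a preimage bounded by finitely many seminorms.
-/

namespace Vale.Agent.P204.Full.Neumann

variable {X Z : Type*} [AddCommGroup X] [Module ℝ X] [AddCommGroup Z] [Module ℝ Z]

/-- on a finite-dimensional space any seminorm is dominated by a definite one -/
theorem exists_le_of_finiteDimensional [FiniteDimensional ℝ X] (n g : Seminorm ℝ X)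
    (hn : ∀ x, n x = 0 → x = 0) : ∃ C, 0 ≤ C ∧ ∀ x, g x ≤ C * n x := by
  let gn : AddGroupNorm X :=
    { toFun := n
      map_zero' := map_zero n
      add_le' := map_add_le_add n
      neg' := map_neg_eq_map n
      eq_zero_of_map_eq_zero' := hn }
  let _ : NormedAddCommGroup X := gn.toNormedAddCommGroup
  let _ : NormedSpace ℝ X := ⟨fun a x => (map_smul_eq_mul n a x).le⟩
  let b := Module.finBasis ℝ X
  let L : Fin (Module.finrank ℝ X) → (X →L[ℝ] ℝ) := fun i => LinearMap.toContinuousLinearMap (b.coord i)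
  refine ⟨∑ i, ‖L i‖ * g (b i), Finset.sum_nonneg fun i _ => by positivity, fun x => ?_⟩
  calc g x = g (∑ i, b.repr x i • b i) := by rw [b.sum_repr]
    _ ≤ ∑ i, g (b.repr x i • b i) :=
        Finset.le_sum_of_subadditive g (map_zero _).le (map_add_le_add _) _ _
    _ ≤ ∑ i, ‖L i‖ * ‖x‖ * g (b i) := by
        refine Finset.sum_le_sum fun i _ => ?_
        rw [map_smul_eq_mul]
        refine mul_le_mul_of_nonneg_right ?_ (apply_nonneg _ _)
        exact (L i).le_opNorm x
    _ = _ := by
        rw [Finset.sum_mul]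
        refine Finset.sum_congr rfl fun i _ => ?_
        show _ = ‖L i‖ * g (b i) * ‖x‖
        ring

/-- a linear parametrix up to a small and a finite-rank error gives bounded lifts -/
theorem exists_bounded_lift {p : ℕ → Seminorm ℝ X} {K F : X →ₗ[ℝ] X} {θ : ℝ} {C : ℕ → ℝ}
    (hp : Monotone p) (hK : TopSmall p K θ C) (hc : SeriesComplete p)
    (hsep : ∀ x, p 0 x = 0 → x = 0)
    [FiniteDimensional ℝ (LinearMap.range F)] {CF : ℝ} (hF : ∀ v, p 0 (F v) ≤ CF * p 0 v)
    (P : Z →ₗ[ℝ] X) (D : X →ₗ[ℝ] Z) (hPD : ∀ u, P (D u) = u + K u + F u)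
    (q : Seminorm ℝ Z) {N : ℕ} {CD : ℝ} (hD : ∀ u, q (D u) ≤ CD * p N u) :
    ∃ C', 0 ≤ C' ∧ ∀ z, ∃ z', P z' = P z ∧ q z' ≤ C' * p N (P z) := by
  obtain ⟨B, hB, hsol⟩ := exists_solution hp hK hc hsep
  let W : Submodule ℝ X := LinearMap.range F ⊓ LinearMap.range P
  have : FiniteDimensional ℝ W :=
    Submodule.finiteDimensional_of_le (inf_le_left : W ≤ LinearMap.range F)
  let b := Module.finBasis ℝ W
  have hpre : ∀ i, ∃ z, P z = (b i : X) := fun i => ((b i).2).2
  choose zb hzb using hpre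
  let R : W →ₗ[ℝ] Z := b.constr ℝ zb
  have hPR : ∀ w : W, P (R w) = (w : X) := by
    have he : P.comp R = W.subtype := b.ext fun i => by simp [R, hzb]
    exact fun w => congrArg (fun f : W →ₗ[ℝ] X => f w) he
  obtain ⟨CR, hCR, hR⟩ := exists_le_of_finiteDimensional
    ((p 0).comp W.subtype) (q.comp R) (fun w hw => Subtype.ext (hsep _ hw))
  refine ⟨|CD| * B N + CR * (|CF| * B N), by have := hB N; positivity, fun z => ?_⟩
  obtain ⟨u, hu, hub⟩ := hsol (P z)
  have hFu : F u = P (D u) - P z := by rw [hPD, hu]; abel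
  have hw : F u ∈ W := ⟨LinearMap.mem_range_self F u, ⟨D u - z, by rw [map_sub, hFu]⟩⟩
  refine ⟨D u - R ⟨F u, hw⟩, ?_, ?_⟩
  · rw [map_sub, hPR]
    show P (D u) - F u = P z
    rw [hFu]
    abel
  · refine (map_sub_le_add _ _ _).trans ?_
    have hN : p N u ≤ B N * p N (P z) := hub N
    have h1 : q (D u) ≤ |CD| * B N * p N (P z) := by
      calc q (D u) ≤ CD * p N u := hD u
        _ ≤ |CD| * p N u := mul_le_mul_of_nonneg_right (le_abs_self _) (apply_nonneg _ _)
        _ ≤ |CD| * (B N * p N (P z)) := mul_le_mul_of_nonneg_left hN (abs_nonneg _)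
        _ = _ := by ring
    have h2 : q (R ⟨F u, hw⟩) ≤ CR * (|CF| * B N) * p N (P z) := by
      calc q (R ⟨F u, hw⟩) ≤ CR * p 0 (F u) := hR ⟨F u, hw⟩
        _ ≤ CR * (|CF| * p N u) := by
          refine mul_le_mul_of_nonneg_left ((hF u).trans ?_) hCR
          exact mul_le_mul (le_abs_self _) (hp (Nat.zero_le N) u) (apply_nonneg _ _) (abs_nonneg _)
        _ ≤ CR * (|CF| * (B N * p N (P z))) := by gcongr
        _ = _ := by ring
    linarith

end Vale.Agent.P204.Full.Neumann
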