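import Mathlib

/-!
P204 (F7): the real recursion closing the density bound (pins (d) of the referee note).
Along the scales `e / Λ ^ j` the density `M` and the dual norm `Y` satisfy
`M ≤ C + C Y` and `Y e ≤ C √(M (e/Λ)) + θ Y (e/Λ)`, with crude polynomial a-priori bounds.
-/

namespace Vale.Agent.P204.Full.Neumann

open Filter Finset
open scoped Topology BigOperators

/-- iterating one step of the recursion -/
theorem iterate_step {Y M : ℕ → ℝ} {C θ w G : ℝ} (hC : 0 ≤ C) (hθ : 0 ≤ θ) (hw : 0 < w)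
    (hY : ∀ j, Y j ≤ C * Real.sqrt (M (j + 1)) + θ * Y (j + 1))
    (hM : ∀ j, Real.sqrt (M j) * w ^ j ≤ G) (i n : ℕ) :
    Y i ≤ C * G * ∑ j ∈ range n, θ ^ j / w ^ (i + j + 1) + θ ^ n * Y (i + n) := by
  induction n with
  | zero => simp
  | succ n ih =>
    refine ih.trans ?_
    have h1 : Real.sqrt (M (i + n + 1)) ≤ G / w ^ (i + n + 1) := by
      rw [le_div_iff₀ (by positivity)]
      exact hM _
    have h2 := mul_le_mul_of_nonneg_left ((hY (i + n)).trans
      (add_le_add (mul_le_mul_of_nonneg_left h1 hC) le_rfl)) (pow_nonneg hθ n)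
    rw [sum_range_succ, mul_add, ← add_assoc i n 1, pow_succ θ n]
    calc _ ≤ C * G * ∑ j ∈ range n, θ ^ j / w ^ (i + j + 1) +
          θ ^ n * (C * (G / w ^ (i + n + 1)) + θ * Y (i + n + 1)) := add_le_add le_rfl h2
      _ = _ := by ring

/-- the bound along one orbit of scales -/
theorem bound_of_recursion {Y M : ℕ → ℝ} {C θ w A B L : ℝ} (hC : 0 ≤ C) (hθ : 0 ≤ θ)
    (hw : 0 < w) (hw1 : w ≤ 1) (hθw : θ < w) (hL : 0 ≤ L) (hθL : θ * L < 1)
    (hM0 : ∀ j, 0 ≤ M j)
    (hMY : ∀ j, M j ≤ C + C * Y j)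
    (hY : ∀ j, Y j ≤ C * Real.sqrt (M (j + 1)) + θ * Y (j + 1))
    (hYcrude : ∀ j, Y j ≤ A * L ^ j)
    (hMcrude : ∀ j, Real.sqrt (M j) * w ^ j ≤ B) :
    M 0 ≤ (1 + C + C * (C / (w - θ))) ^ 2 ∧
      Y 0 ≤ C / (w - θ) * (1 + C + C * (C / (w - θ))) := by
  set G : ℝ := ⨆ j, Real.sqrt (M j) * w ^ j with hGdef
  have hbdd : BddAbove (Set.range fun j => Real.sqrt (M j) * w ^ j) :=
    ⟨B, by rintro _ ⟨j, rfl⟩; exact hMcrude j⟩
  have hG : ∀ j, Real.sqrt (M j) * w ^ j ≤ G := fun j => le_ciSup hbdd j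
  have hG0 : 0 ≤ G := le_trans (by positivity) (hG 0)
  have hD : 0 ≤ C / (w - θ) := div_nonneg hC (by linarith)
  have hYi : ∀ i, Y i ≤ C / (w - θ) * G / w ^ i := by
    intro i
    have hstep : ∀ n, Y i ≤ C / (w - θ) * G / w ^ i + A * L ^ i * (θ * L) ^ n := by
      intro n
      refine (iterate_step hC hθ hw hY hG i n).trans (add_le_add ?_ ?_)
      · have hq : θ / w < 1 := (div_lt_one hw).2 hθw
        have hgeom : ∑ j ∈ range n, (θ / w) ^ j ≤ w / (w - θ) := by
          refine (Summable.sum_le_tsum _ (fun j _ => by positivity)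
            (summable_geometric_of_lt_one (by positivity) hq)).trans ?_
          rw [tsum_geometric_of_lt_one (by positivity) hq]
          apply le_of_eq
          field_simp
        have e : ∀ j, θ ^ j / w ^ (i + j + 1) = (θ / w) ^ j * (1 / w ^ (i + 1)) := by
          intro j
          rw [div_pow, div_mul_div_comm, mul_one, ← pow_add]
          congr 2
          omega
        simp only [e]
        rw [← sum_mul]
        calc C * G * ((∑ j ∈ range n, (θ / w) ^ j) * (1 / w ^ (i + 1)))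
            ≤ C * G * (w / (w - θ) * (1 / w ^ (i + 1))) := by gcongr
          _ = _ := by rw [pow_succ]; field_simp
      · calc θ ^ n * Y (i + n) ≤ θ ^ n * (A * L ^ (i + n)) :=
              mul_le_mul_of_nonneg_left (hYcrude _) (pow_nonneg hθ n)
          _ = _ := by rw [pow_add, mul_pow]; ring
    have hlim := ((tendsto_pow_atTop_nhds_zero_of_lt_one (mul_nonneg hθ hL) hθL).const_mul
      (A * L ^ i)).const_add (C / (w - θ) * G / w ^ i)
    rw [mul_zero, add_zero] at hlim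
    exact ge_of_tendsto' hlim hstep
  have hGbound : G ≤ 1 + C + C * (C / (w - θ)) := by
    by_contra hlt
    push Not at hlt
    set K : ℝ := C / (w - θ) with hK
    have hsq : ∀ i, (Real.sqrt (M i) * w ^ i) ^ 2 ≤ C + C * K * G := by
      intro i
      have hwi : w ^ i ≤ 1 := pow_le_one₀ hw.le hw1
      have hwi0 : 0 < w ^ i := pow_pos hw i
      rw [mul_pow, Real.sq_sqrt (hM0 i)]
      have h1 := (hMY i).trans (add_le_add le_rfl (mul_le_mul_of_nonneg_left (hYi i) hC))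
      calc M i * (w ^ i) ^ 2 ≤ (C + C * (K * G / w ^ i)) * (w ^ i) ^ 2 :=
            mul_le_mul_of_nonneg_right h1 (by positivity)
        _ = C * (w ^ i) ^ 2 + C * K * G * w ^ i := by field_simp
        _ ≤ C + C * K * G := by
          refine add_le_add ?_ ?_
          · exact mul_le_of_le_one_right hC (pow_le_one₀ hwi0.le hwi)
          · exact mul_le_of_le_one_right (by positivity) hwi
    have hGle : G ≤ Real.sqrt (C + C * K * G) := ciSup_le fun i => Real.le_sqrt_of_sq_le (hsq i)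
    have hGG : G ^ 2 ≤ C + C * K * G := by
      have h2 := pow_le_pow_left₀ hG0 hGle 2
      rwa [Real.sq_sqrt (by positivity)] at h2
    nlinarith [mul_nonneg hC hD]
  constructor
  · have h0 := (hG 0).trans hGbound
    simp only [pow_zero, mul_one] at h0
    have h2 := pow_le_pow_left₀ (Real.sqrt_nonneg _) h0 2
    rwa [Real.sq_sqrt (hM0 0)] at h2
  · refine (hYi 0).trans ?_
    simp only [pow_zero, div_one]
    exact mul_le_mul_of_nonneg_left hGbound hD

/-- the recursion closes: density and dual norm are bounded at all small scales -/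
theorem exists_bound_of_scale_recursion {Y M : ℝ → ℝ} {C θ Λ e₀ A B : ℝ} {N : ℕ}
    (hC : 0 ≤ C) (hθ : 0 ≤ θ) (hΛ : 1 < Λ) (hθΛ : θ * Λ < 1) (hθN : θ * Λ ^ N < 1)
    (hM0 : ∀ e ∈ Set.Ioc 0 e₀, 0 ≤ M e)
    (hMY : ∀ e ∈ Set.Ioc 0 e₀, M e ≤ C + C * Y e)
    (hY : ∀ e ∈ Set.Ioc 0 e₀, Y e ≤ C * Real.sqrt (M (e / Λ)) + θ * Y (e / Λ))
    (hYcrude : ∀ e ∈ Set.Ioc 0 e₀, Y e * e ^ N ≤ A)
    (hMcrude : ∀ e ∈ Set.Ioc 0 e₀, M e * e ^ 2 ≤ B) :
    ∃ C', ∀ e ∈ Set.Ioc 0 e₀, M e ≤ C' ∧ Y e ≤ C' := by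
  have hΛ0 : 0 < Λ := by linarith
  set K : ℝ := C / (1 / Λ - θ) with hK
  refine ⟨max ((1 + C + C * K) ^ 2) (K * (1 + C + C * K)), fun e he => ?_⟩
  have hmem : ∀ j : ℕ, e / Λ ^ j ∈ Set.Ioc 0 e₀ := fun j =>
    ⟨div_pos he.1 (pow_pos hΛ0 j),
      (div_le_self he.1.le (one_le_pow₀ hΛ.le)).trans he.2⟩
  have hstep : ∀ j : ℕ, e / Λ ^ j / Λ = e / Λ ^ (j + 1) := fun j => by
    rw [div_div, pow_succ]
  have hθw : θ < 1 / Λ := by rwa [lt_div_iff₀ hΛ0]
  have h := bound_of_recursion (Y := fun j => Y (e / Λ ^ j)) (M := fun j => M (e / Λ ^ j))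
    (C := C) (θ := θ) (w := 1 / Λ) (A := A / e ^ N) (B := Real.sqrt B / e) (L := Λ ^ N)
    hC hθ (by positivity) (by rw [div_le_one hΛ0]; exact hΛ.le) hθw (by positivity) hθN
    (fun j => hM0 _ (hmem j)) (fun j => hMY _ (hmem j))
    (fun j => by
      have hj := hY _ (hmem j)
      rwa [hstep j] at hj)
    (fun j => by
      have hj := hYcrude _ (hmem j)
      rw [div_pow, ← mul_div_assoc, div_le_iff₀ (by positivity)] at hj
      rw [← pow_mul, mul_comm N j, pow_mul, div_mul_eq_mul_div, le_div_iff₀ (pow_pos he.1 N)]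
      exact hj)
    (fun j => by
      have hj := hMcrude _ (hmem j)
      have he' : (1 / Λ : ℝ) ^ j = (e / Λ ^ j) / e := by
        rw [div_pow, one_pow]
        field_simp [he.1.ne']
      rw [he', ← mul_div_assoc]
      refine div_le_div_of_nonneg_right ?_ he.1.le
      calc Real.sqrt (M (e / Λ ^ j)) * (e / Λ ^ j)
          = Real.sqrt (M (e / Λ ^ j) * (e / Λ ^ j) ^ 2) := by
            rw [Real.sqrt_mul (hM0 _ (hmem j)), Real.sqrt_sq (hmem j).1.le]
        _ ≤ Real.sqrt B := Real.sqrt_le_sqrt hj)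
  simp only [pow_zero, div_one] at h
  exact ⟨h.1.trans (le_max_left _ _), h.2.trans (le_max_right _ _)⟩

end Vale.Agent.P204.Full.Neumann
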