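import Mathlib

/-!
P204 (F7): Neumann series in a space with a sequence of seminorms.
If `K` contracts the top order of each seminorm up to the preceding seminorm, then `u + K u = f`
is solvable with `p k u ≤ B k * p k f` for every `k`.
-/

namespace Vale.Agent.P204.Full.Neumann

open Filter Finset
open scoped Topology BigOperators

variable {X : Type*} [AddCommGroup X] [Module ℝ X]

/-- completeness of a sequence of seminorms, for absolutely summable series -/
def SeriesComplete (p : ℕ → Seminorm ℝ X) : Prop :=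
  ∀ v : ℕ → X, (∀ k, Summable fun n => p k (v n)) →
    ∃ s : X, ∀ k, Tendsto (fun n => p k (s - ∑ i ∈ range n, v i)) atTop (𝓝 0)

/-- contraction at top order -/
structure TopSmall (p : ℕ → Seminorm ℝ X) (K : X →ₗ[ℝ] X) (θ : ℝ) (C : ℕ → ℝ) : Prop where
  θ_nonneg : 0 ≤ θ
  θ_lt : θ < 1
  C_nonneg : ∀ k, 0 ≤ C k
  zero : ∀ v, p 0 (K v) ≤ θ * p 0 v
  succ : ∀ k v, p (k + 1) (K v) ≤ θ * p (k + 1) v + C k * p k v

variable {p : ℕ → Seminorm ℝ X} {K : X →ₗ[ℝ] X} {θ : ℝ} {C : ℕ → ℝ}

/-- the sums of all seminorms of the iterates are bounded -/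
theorem exists_sum_bound (hp : Monotone p) (h : TopSmall p K θ C) (k : ℕ) :
    ∃ B, 0 ≤ B ∧ ∀ v N, ∑ i ∈ range N, p k ((K ^ i) v) ≤ B * p k v := by
  have h1 : 0 < 1 - θ := by linarith [h.θ_lt]
  induction k with
  | zero =>
    refine ⟨1 / (1 - θ), by positivity, fun v N => ?_⟩
    rw [div_mul_eq_mul_div, le_div_iff₀ h1, one_mul]
    have hS : ∑ i ∈ range (N + 1), p 0 ((K ^ i) v) ≤
        p 0 v + θ * ∑ i ∈ range N, p 0 ((K ^ i) v) := by
      rw [sum_range_succ', mul_sum, add_comm]
      refine add_le_add (le_of_eq (by simp)) (sum_le_sum fun i _ => ?_)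
      rw [pow_succ', Module.End.mul_apply]
      exact h.zero _
    have hmono : ∑ i ∈ range N, p 0 ((K ^ i) v) ≤ ∑ i ∈ range (N + 1), p 0 ((K ^ i) v) :=
      sum_le_sum_of_subset_of_nonneg (range_mono (Nat.le_succ N)) fun i _ _ => apply_nonneg _ _
    nlinarith
  | succ k ih =>
    obtain ⟨B, hB, hBb⟩ := ih
    refine ⟨(1 + C k * B) / (1 - θ), div_nonneg (by have := h.C_nonneg k; positivity) h1.le,
      fun v N => ?_⟩
    rw [div_mul_eq_mul_div, le_div_iff₀ h1]
    have hS : ∑ i ∈ range (N + 1), p (k + 1) ((K ^ i) v) ≤ p (k + 1) v +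
        (θ * ∑ i ∈ range N, p (k + 1) ((K ^ i) v) + C k * ∑ i ∈ range N, p k ((K ^ i) v)) := by
      rw [sum_range_succ', mul_sum, mul_sum, ← sum_add_distrib, add_comm]
      refine add_le_add (le_of_eq (by simp)) (sum_le_sum fun i _ => ?_)
      rw [pow_succ', Module.End.mul_apply]
      exact h.succ k _
    have hmono : ∑ i ∈ range N, p (k + 1) ((K ^ i) v) ≤
        ∑ i ∈ range (N + 1), p (k + 1) ((K ^ i) v) :=
      sum_le_sum_of_subset_of_nonneg (range_mono (Nat.le_succ N)) fun i _ _ => apply_nonneg _ _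
    have hlow : p k v ≤ p (k + 1) v := hp (Nat.le_succ k) v
    have h3 := mul_le_mul_of_nonneg_left
      ((hBb v N).trans (mul_le_mul_of_nonneg_left hlow hB)) (h.C_nonneg k)
    nlinarith

/-- bounded maps for the seminorms send small to small -/
theorem map_bound (h : TopSmall p K θ C) (k : ℕ) (hp : Monotone p) :
    ∃ D, 0 ≤ D ∧ ∀ v, p k (K v) ≤ D * p k v := by
  cases k with
  | zero => exact ⟨θ, h.θ_nonneg, h.zero⟩
  | succ k =>
    refine ⟨θ + C k, add_nonneg h.θ_nonneg (h.C_nonneg k), fun v => (h.succ k v).trans ?_⟩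
    have h1 : p k v ≤ p (k + 1) v := hp (Nat.le_succ k) v
    nlinarith [h.C_nonneg k]

/-- solvability of `u + K u = f`, with bounds in every seminorm -/
theorem exists_solution (hp : Monotone p) (h : TopSmall p K θ C) (hc : SeriesComplete p)
    (hsep : ∀ x, p 0 x = 0 → x = 0) :
    ∃ B : ℕ → ℝ, (∀ k, 0 ≤ B k) ∧ ∀ f, ∃ u, u + K u = f ∧ ∀ k, p k u ≤ B k * p k f := by
  choose B hB hBb using exists_sum_bound hp h
  refine ⟨B, hB, fun f => ?_⟩
  set v : ℕ → X := fun i => ((-K) ^ i) f with hv
  have hpv : ∀ k i, p k (v i) = p k ((K ^ i) f) := by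
    intro k i
    have hs : ∀ i, v i = (-1 : ℝ) ^ i • (K ^ i) f := by
      intro i
      induction i with
      | zero => simp [hv]
      | succ i ih =>
        have e : v (i + 1) = -K (v i) := by
          simp [hv, pow_succ', Module.End.mul_apply]
        rw [e, ih, pow_succ' K, Module.End.mul_apply, map_smul, pow_succ', mul_smul]
        simp
    rw [hs, map_smul_eq_mul]
    simp
  have hsum : ∀ k, Summable fun n => p k (v n) := fun k =>
    summable_of_sum_range_le (fun n => apply_nonneg _ _)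
      (fun N => by simpa only [hpv] using hBb k f N)
  obtain ⟨s, hs⟩ := hc v hsum
  refine ⟨s, ?_, fun k => ?_⟩
  · rw [← sub_eq_zero]
    apply hsep
    obtain ⟨D, hD, hDb⟩ := map_bound h 0 hp
    have tel : ∀ n, (s + K s - f) =
        (s - ∑ i ∈ range n, v i) + K (s - ∑ i ∈ range n, v i) - v n := by
      intro n
      have t : ∀ n, (∑ i ∈ range n, v i) + K (∑ i ∈ range n, v i) + v n = f := by
        intro n
        induction n with
        | zero => simp [hv]
        | succ n ih =>
          have e : v (n + 1) = -K (v n) := by simp [hv, pow_succ', Module.End.mul_apply]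
          rw [sum_range_succ, map_add, e]
          calc _ = (∑ i ∈ range n, v i) + K (∑ i ∈ range n, v i) + v n := by abel
            _ = f := ih
      conv_lhs => rw [← t n]
      rw [map_sub]
      abel
    have hle : ∀ n, p 0 (s + K s - f) ≤
        (1 + D) * p 0 (s - ∑ i ∈ range n, v i) + p 0 (v n) := by
      intro n
      rw [tel n]
      refine (map_sub_le_add _ _ _).trans ?_
      have h2 := map_add_le_add (p 0) (s - ∑ i ∈ range n, v i) (K (s - ∑ i ∈ range n, v i))
      nlinarith [hDb (s - ∑ i ∈ range n, v i)]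
    have hlim := ((hs 0).const_mul (1 + D)).add (hsum 0).tendsto_atTop_zero
    rw [mul_zero, add_zero] at hlim
    exact le_antisymm (ge_of_tendsto' hlim hle) (apply_nonneg _ _)
  · have hle : ∀ n, p k s ≤ p k (s - ∑ i ∈ range n, v i) + B k * p k f := by
      intro n
      calc p k s = p k ((s - ∑ i ∈ range n, v i) + ∑ i ∈ range n, v i) := by rw [sub_add_cancel]
        _ ≤ p k (s - ∑ i ∈ range n, v i) + p k (∑ i ∈ range n, v i) := map_add_le_add _ _ _
        _ ≤ _ := by
          refine add_le_add le_rfl (le_trans ?_ (hBb k f n))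
          simp only [← hpv]
          exact Finset.le_sum_of_subadditive (p k) (map_zero _).le (map_add_le_add _) _ _
    have hlim := (hs k).add_const (B k * p k f)
    rw [zero_add] at hlim
    exact ge_of_tendsto' hlim hle

/-- adding a smoothing operator which is small in the lowest seminorm -/
theorem TopSmall.add_smoothing (h : TopSmall p K θ C) (hp : Monotone p) {S : X →ₗ[ℝ] X} {ε : ℝ}
    (hε : 0 ≤ ε) (hθ : θ + ε < 1) (S0 : ∀ v, p 0 (S v) ≤ ε * p 0 v) {D : ℕ → ℝ}
    (hD : ∀ k, 0 ≤ D k) (hS : ∀ k v, p (k + 1) (S v) ≤ D k * p 0 v) :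
    TopSmall p (K + S) (θ + ε) (fun k => C k + D k) where
  θ_nonneg := add_nonneg h.θ_nonneg hε
  θ_lt := hθ
  C_nonneg k := add_nonneg (h.C_nonneg k) (hD k)
  zero v := by
    refine (map_add_le_add _ _ _).trans ?_
    nlinarith [h.zero v, S0 v]
  succ k v := by
    refine (map_add_le_add _ _ _).trans ?_
    have h0 : p 0 v ≤ p k v := hp (Nat.zero_le k) v
    nlinarith [h.succ k v, hS k v, hD k, apply_nonneg (p (k + 1)) v]

end Vale.Agent.P204.Full.Neumann
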