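import Mathlib

/-!
P204 (F7): series of smooth functions with summable bounds in every `C^k` norm.
Used to check `SeriesComplete` for seminorms made of sup norms of derivatives.
-/

namespace Vale.Agent.P204.Full.Neumann

open Filter Finset
open scoped Topology BigOperators ContDiff

variable {E W : Type*} [NormedAddCommGroup E] [NormedSpace ℝ E]
  [NormedAddCommGroup W] [NormedSpace ℝ W] [CompleteSpace W]

/-- the sum is smooth and the partial sums converge to it with every derivative -/
theorem exists_smooth_sum {v : ℕ → E → W} (hv : ∀ n, ContDiff ℝ ∞ (v n)) {a : ℕ → ℕ → ℝ}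
    (ha : ∀ k, Summable (a k)) (hb : ∀ k n x, ‖iteratedFDeriv ℝ k (v n) x‖ ≤ a k n) :
    ∃ s : E → W, ContDiff ℝ ∞ s ∧ (∀ x, HasSum (fun n => v n x) (s x)) ∧
      ∀ k, ∃ b : ℕ → ℝ, Tendsto b atTop (𝓝 0) ∧
        ∀ n x, ‖iteratedFDeriv ℝ k (fun y => s y - ∑ i ∈ range n, v i y) x‖ ≤ b n := by
  have h0 : ∀ x, Summable fun n => v n x := fun x =>
    Summable.of_norm_bounded (ha 0) fun n => by simpa using hb 0 n x
  refine ⟨fun x => ∑' n, v n x, contDiff_tsum (N := (⊤ : ℕ∞)) hv (fun k _ => ha k)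
    (fun k n x _ => hb k n x), fun x => (h0 x).hasSum, fun k => ?_⟩
  refine ⟨fun n => ∑' i, a k (i + n), tendsto_sum_nat_add (a k), fun n x => ?_⟩
  have hsh : (fun y => (∑' i, v i y) - ∑ i ∈ range n, v i y) = fun y => ∑' i, v (i + n) y := by
    funext y
    rw [← (h0 y).sum_add_tsum_nat_add n]
    abel
  have han : ∀ j, Summable fun i => a j (i + n) := fun j => (summable_nat_add_iff n).2 (ha j)
  rw [hsh, iteratedFDeriv_tsum (N := (⊤ : ℕ∞)) (fun i => hv (i + n)) (fun j _ => han j)
    (fun j i y _ => hb j (i + n) y) (by exact_mod_cast le_top)]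
  exact tsum_of_norm_bounded (han k).hasSum fun i => hb k (i + n) x

end Vale.Agent.P204.Full.Neumann
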